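import Mathlib

/-! # P302: bin packing and the Gilmore-Gomory configuration linear program -/

namespace Vale.Agent.H5P302

open Finset

/-- The items in `s` (with sizes `a`) can be packed into `k` bins. -/
def Packs {n : ℕ} (a : Fin n → ℚ) (s : Finset (Fin n)) (k : ℕ) : Prop :=
  ∃ f : Fin n → ℕ, (∀ i ∈ s, f i < k) ∧ ∀ b : ℕ, ∑ i ∈ s.filter (fun i => f i = b), a i ≤ 1

/-- `OPT(I)`: the least number of bins into which all items can be packed. -/
noncomputable def OPT {n : ℕ} (a : Fin n → ℚ) : ℕ := sInf {k : ℕ | Packs a univ k}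

/-- The set of distinct sizes. -/
def sizes {n : ℕ} (a : Fin n → ℚ) : Finset ℚ := univ.image a

/-- The multiplicity of the size `σ`. -/
def mult {n : ℕ} (a : Fin n → ℚ) (σ : ℚ) : ℕ := (univ.filter fun i => a i = σ).card

/-- Configurations: vectors of nonnegative integers indexed by the distinct sizes, of total size
at most `1`. -/
def IsConfig {n : ℕ} (a : Fin n → ℚ) (c : sizes a → ℕ) : Prop :=
  ∑ σ : sizes a, (σ : ℚ) * (c σ : ℚ) ≤ 1

/-- `v` is the value of a feasible solution `z` of the configuration linear program (with `z`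
supported on a finite set `C` of configurations). `LP(I)` is the least such `v`. -/
def IsLPValue {n : ℕ} (a : Fin n → ℚ) (v : ℝ) : Prop :=
  ∃ (C : Finset (sizes a → ℕ)) (z : (sizes a → ℕ) → ℝ),
    (∀ c ∈ C, IsConfig a c ∧ 0 ≤ z c) ∧
    (∀ σ : sizes a, (mult a σ : ℝ) ≤ ∑ c ∈ C, (c σ : ℝ) * z c) ∧
    v = ∑ c ∈ C, z c

end Vale.Agent.H5P302
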