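import Vale.Agent.H5P302.LP

namespace Vale.Agent.H5P302

open Finset

variable {n : ℕ} {a : Fin n → ℚ}

/-- adding one small item by first fit -/
lemma add_item {s : Finset (Fin n)} {N : ℕ} (hN : 1 ≤ N) (h : Packs a s (N + 1)) {x : Fin n}
    (hx : x ∉ s) (hax : a x ≤ 1 / N) (htot : ∑ i ∈ insert x s, a i ≤ N) :
    Packs a (insert x s) (N + 1) := by
  classical
  obtain ⟨f, h1, h2⟩ := h
  have hNQ : (1 : ℚ) ≤ N := by exact_mod_cast hN
  have hex : ∃ b ∈ range (N + 1), ∑ i ∈ s.filter (fun i => f i = b), a i ≤ 1 - a x := by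
    by_contra hcon
    push Not at hcon
    have h3 : ∑ _b ∈ range (N + 1), (1 - a x) < ∑ b ∈ range (N + 1),
        ∑ i ∈ s.filter (fun i => f i = b), a i :=
      sum_lt_sum_of_nonempty ⟨0, mem_range.2 (Nat.succ_pos N)⟩ hcon
    rw [sum_fiberwise_of_maps_to (fun i hi => mem_range.2 (h1 i hi)), sum_const, card_range,
      nsmul_eq_mul] at h3
    rw [sum_insert hx] at htot
    push_cast at h3
    have h4 : a x * N ≤ 1 := by
      rw [le_div_iff₀ (by linarith)] at hax
      exact hax
    nlinarith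
  obtain ⟨b, hb, hbl⟩ := hex
  rw [mem_range] at hb
  refine ⟨fun i => if i = x then b else f i, ?_, ?_⟩
  · intro i hi
    by_cases hix : i = x
    · simp only [hix, if_true]
      exact hb
    · simp only [hix, if_false]
      exact h1 i ((mem_insert.1 hi).resolve_left hix)
  · intro b'
    by_cases hbb : b' = b
    · have he : (insert x s).filter (fun i => (if i = x then b else f i) = b')
          = insert x (s.filter (fun i => f i = b)) := by
        ext i
        simp only [mem_filter, mem_insert]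
        constructor
        · rintro ⟨hi, hf⟩
          by_cases hix : i = x
          · exact Or.inl hix
          · rw [if_neg hix, hbb] at hf
            exact Or.inr ⟨hi.resolve_left hix, hf⟩
        · rintro (hi | ⟨hi, hf⟩)
          · exact ⟨Or.inl hi, by rw [if_pos hi, hbb]⟩
          · have hix : i ≠ x := by
              rintro rfl
              exact hx hi
            exact ⟨Or.inr hi, by rw [if_neg hix, hbb]; exact hf⟩
      rw [he, sum_insert (fun h => hx (mem_filter.1 h).1)]
      linarith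
    · have he : (insert x s).filter (fun i => (if i = x then b else f i) = b')
          = s.filter (fun i => f i = b') := by
        ext i
        simp only [mem_filter, mem_insert]
        constructor
        · rintro ⟨hi, hf⟩
          by_cases hix : i = x
          · rw [if_pos hix] at hf
            exact absurd hf.symm hbb
          · rw [if_neg hix] at hf
            exact ⟨hi.resolve_left hix, hf⟩
        · rintro ⟨hi, hf⟩
          have hix : i ≠ x := by
            rintro rfl
            exact hx hi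
          exact ⟨Or.inr hi, by rw [if_neg hix]; exact hf⟩
      rw [he]
      exact h2 b'

/-- small items can always be added -/
lemma extend {B : Finset (Fin n)} {N : ℕ} (hN : 1 ≤ N) (h0 : ∀ i, 0 < a i)
    (htot : ∑ i, a i ≤ N) (h : Packs a B (N + 1)) (hsmall : ∀ i, i ∉ B → a i ≤ 1 / N) :
    Packs a univ (N + 1) := by
  classical
  have key : ∀ t : Finset (Fin n), Disjoint B t → Packs a (B ∪ t) (N + 1) := by
    intro t
    induction t using Finset.induction_on with
    | empty => intro _; simpa using h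
    | insert x t hxt ih =>
      intro hd
      rw [disjoint_insert_right] at hd
      have h1 := ih hd.2
      have hx : x ∉ B ∪ t := by
        rw [mem_union]
        rintro (h | h)
        · exact hd.1 h
        · exact hxt h
      rw [union_insert]
      refine add_item hN h1 hx (hsmall x hd.1) (le_trans ?_ htot)
      exact sum_le_sum_of_subset_of_nonneg (subset_univ _) fun i _ _ => (h0 i).le
  have h2 := key Bᶜ disjoint_compl_right
  rwa [union_compl] at h2

lemma OPT_le {k : ℕ} (h : Packs a univ k) : OPT a ≤ k := Nat.sInf_le h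

/-- reduction to items larger than `1 / ⌈v⌉` -/
theorem reduction (h0 : ∀ i, 0 < a i) {v : ℝ} (hv : IsLPValue a v) (hpos : 0 < v)
    (B : Finset (Fin n)) (hB : ∀ i, i ∉ B → a i ≤ 1 / (⌈v⌉₊ : ℚ))
    (hP : Packs a B (⌈v⌉₊ + 1)) : OPT a ≤ ⌈v⌉₊ + 1 := by
  have hN : 1 ≤ ⌈v⌉₊ := Nat.one_le_iff_ne_zero.2 (Nat.ceil_pos.2 hpos).ne'
  have h1 : ((∑ i, a i : ℚ) : ℝ) ≤ (⌈v⌉₊ : ℝ) := (total_le h0 hv).trans (Nat.le_ceil v)
  have h2 : (∑ i, a i : ℚ) ≤ (⌈v⌉₊ : ℚ) := by exact_mod_cast h1
  exact OPT_le (extend hN h0 h2 hP hB)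

/-- integer round-up for items larger than `1/3` -/
theorem roundup (h0 : ∀ i, 0 < a i) (h1 : ∀ i, a i ≤ 1) {v : ℝ} (hv : IsLPValue a v)
    (s : Finset (Fin n)) (hs : ∀ i ∈ s, 1 / 3 < a i) : Packs a s ⌈v⌉₊ := by
  obtain ⟨θ, k, hθ, hk, hk2⟩ := greedy s.card s rfl hs (fun i _ => h1 i)
  refine hk.mono ?_
  have h2 := w2_total hθ h0 hv
  have h3 : ∑ i ∈ s, w2 θ (a i) ≤ ∑ i, w2 θ (a i) := sum_le_sum_of_subset (subset_univ _)
  have h4 : ((∑ i, w2 θ (a i) : ℕ) : ℝ) ≤ ((2 * ⌈v⌉₊ : ℕ) : ℝ) := by
    push_cast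
    have := Nat.le_ceil v
    push_cast at h2
    linarith
  have h5 : ∑ i, w2 θ (a i) ≤ 2 * ⌈v⌉₊ := by exact_mod_cast h4
  omega

/-- the modified integer round-up property when `LP ≤ 3` -/
theorem mirup_three (h0 : ∀ i, 0 < a i) (h1 : ∀ i, a i ≤ 1) {v : ℝ} (hv : IsLPValue a v)
    (h3 : v ≤ 3) : OPT a ≤ ⌈v⌉₊ + 1 := by
  classical
  rcases le_or_gt v 0 with hv0 | hv0
  · have h4 := total_le h0 hv
    have h5 : (∑ i, a i : ℚ) ≤ 0 := by exact_mod_cast h4.trans hv0
    have h6 : Packs a univ 1 := by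
      refine ⟨fun _ => 0, fun _ _ => Nat.one_pos, fun b => ?_⟩
      calc ∑ i ∈ univ.filter (fun _ => 0 = b), a i ≤ ∑ i, a i :=
            sum_le_sum_of_subset_of_nonneg (filter_subset _ _) fun i _ _ => (h0 i).le
        _ ≤ 1 := by linarith
    exact (OPT_le h6).trans (by omega)
  · have hc : ⌈v⌉₊ ≤ 3 := Nat.ceil_le.2 (by exact_mod_cast h3)
    have hN : 1 ≤ ⌈v⌉₊ := Nat.one_le_iff_ne_zero.2 (Nat.ceil_pos.2 hv0).ne'
    refine reduction h0 hv hv0 (univ.filter fun i => 1 / 3 < a i) ?_ ?_
    · intro i hi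
      rw [mem_filter, not_and, not_lt] at hi
      refine (hi (mem_univ i)).trans ?_
      have h5 : (⌈v⌉₊ : ℚ) ≤ 3 := by exact_mod_cast hc
      have h6 : (0 : ℚ) < ⌈v⌉₊ := by exact_mod_cast hN
      exact one_div_le_one_div_of_le h6 h5
    · exact (roundup h0 h1 hv _ fun i hi => (mem_filter.1 hi).2).mono (Nat.le_succ _)

end Vale.Agent.H5P302
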