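import Vale.Agent.H5P302.Defs

namespace Vale.Agent.H5P302

open Finset

variable {n : ℕ} {a : Fin n → ℚ}

lemma packs_empty : Packs a ∅ 0 := ⟨fun _ => 0, by simp, by simp⟩

lemma Packs.mono {s : Finset (Fin n)} {k l : ℕ} (h : Packs a s k) (hkl : k ≤ l) : Packs a s l := by
  obtain ⟨f, h1, h2⟩ := h
  exact ⟨f, fun i hi => (h1 i hi).trans_le hkl, h2⟩

/-- put the items of `t` in a new bin -/
lemma Packs.add {s t : Finset (Fin n)} {k : ℕ} (h : Packs a s k) (hst : Disjoint s t)
    (ht : ∑ i ∈ t, a i ≤ 1) : Packs a (s ∪ t) (k + 1) := by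
  obtain ⟨f, h1, h2⟩ := h
  refine ⟨fun i => if i ∈ t then k else f i, ?_, ?_⟩
  · intro i hi
    by_cases hit : i ∈ t
    · simp [hit]
    · simp only [hit, if_false]
      rcases mem_union.1 hi with h | h
      · exact (h1 i h).trans (Nat.lt_succ_self k)
      · exact absurd h hit
  · intro b
    by_cases hb : b = k
    · have he : (s ∪ t).filter (fun i => (if i ∈ t then k else f i) = b) = t := by
        ext i
        simp only [mem_filter, mem_union]
        constructor
        · rintro ⟨hi, hf⟩
          by_contra hit
          rw [if_neg hit] at hf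
          rcases hi with h | h
          · have := h1 i h
            omega
          · exact hit h
        · intro hi
          exact ⟨Or.inr hi, by rw [if_pos hi, hb]⟩
      rw [he]
      exact ht
    · have he : (s ∪ t).filter (fun i => (if i ∈ t then k else f i) = b)
          = s.filter (fun i => f i = b) := by
        ext i
        simp only [mem_filter, mem_union]
        constructor
        · rintro ⟨hi, hf⟩
          by_cases hit : i ∈ t
          · rw [if_pos hit] at hf
            exact absurd hf.symm hb
          · rw [if_neg hit] at hf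
            rcases hi with h | h
            · exact ⟨h, hf⟩
            · exact absurd h hit
        · rintro ⟨hi, hf⟩
          have hit : i ∉ t := fun h => (disjoint_left.1 hst hi h)
          exact ⟨Or.inl hi, by rw [if_neg hit]; exact hf⟩
      rw [he]
      exact h2 b

/-- doubled dual weight of one size -/
def w2 (θ σ : ℚ) : ℕ := if 1 - θ < σ then 2 else if θ ≤ σ ∧ 1 / 3 < σ then 1 else 0

lemma w2_le_two (θ σ : ℚ) : w2 θ σ ≤ 2 := by
  unfold w2
  split_ifs <;> omega

/-- key counting step -/
lemma exists_theta {s : Finset (Fin n)} (hs : ∀ i ∈ s, 1 / 3 < a i) {m : Fin n} (hm : m ∈ s)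
    (hm2 : 1 / 2 < a m) :
    ∃ θ : ℚ, θ ≤ 1 / 2 ∧ (s.filter fun i => 1 - a m < a i).card + 1 ≤ ∑ i ∈ s, w2 θ (a i) := by
  classical
  set T := s.filter fun i => 1 - a m < a i with hT
  have hmT : m ∈ T := by
    rw [hT, mem_filter]
    exact ⟨hm, by linarith⟩
  obtain ⟨j, hj, hjmin⟩ := exists_min_image T a ⟨m, hmT⟩
  have hj1 : 1 - a m < a j := (mem_filter.1 hj).2
  refine ⟨min (1 / 2) (a j), min_le_left _ _, ?_⟩
  have hθ : 1 - a m < min (1 / 2) (a j) := lt_min (by linarith) hj1
  have h1 : ∀ i ∈ T.erase m, 1 ≤ w2 (min (1 / 2) (a j)) (a i) := by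
    intro i hi
    have hiT := mem_of_mem_erase hi
    have h2 := hjmin i hiT
    have h3 := hs i (mem_filter.1 hiT).1
    unfold w2
    split_ifs with h4 h5
    · norm_num
    · norm_num
    · exfalso
      exact h5 ⟨(min_le_right _ _).trans h2, h3⟩
  have h6 : w2 (min (1 / 2) (a j)) (a m) = 2 := by
    unfold w2
    rw [if_pos (by linarith)]
  calc T.card + 1 = (T.erase m).card + 2 := by
        rw [card_erase_of_mem hmT]
        have : 0 < T.card := card_pos.2 ⟨m, hmT⟩
        omega
    _ ≤ ∑ i ∈ T.erase m, w2 (min (1 / 2) (a j)) (a i) + w2 (min (1 / 2) (a j)) (a m) := by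
        rw [h6]
        have := card_nsmul_le_sum (T.erase m) (fun i => w2 (min (1 / 2) (a j)) (a i)) 1 h1
        rw [smul_eq_mul, mul_one] at this
        omega
    _ = ∑ i ∈ T, w2 (min (1 / 2) (a j)) (a i) := sum_erase_add _ _ hmT
    _ ≤ ∑ i ∈ s, w2 (min (1 / 2) (a j)) (a i) := sum_le_sum_of_subset (filter_subset _ _)

lemma w2_bound {θ σ μ : ℚ} (hσ : σ ≤ μ) (hθ : θ ≤ 1 - μ) :
    w2 θ σ ≤ if θ ≤ σ then 1 else 0 := by
  unfold w2
  split_ifs with h1 h2 h3 h4 h5
  · exfalso; linarith
  · exfalso; linarith
  · exact le_rfl
  · exact absurd h3.1 h4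
  · exact Nat.zero_le _
  · exact le_rfl

/-- greedy packing of items larger than `1/3`, with a dual certificate -/
theorem greedy : ∀ (N : ℕ) (s : Finset (Fin n)), s.card = N → (∀ i ∈ s, 1 / 3 < a i) →
    (∀ i ∈ s, a i ≤ 1) →
    ∃ (θ : ℚ) (k : ℕ), θ ≤ 1 / 2 ∧ Packs a s k ∧ 2 * k ≤ ∑ i ∈ s, w2 θ (a i) + 1 := by
  classical
  intro N
  induction N using Nat.strong_induction_on with
  | _ N ih =>
  intro s hN hs hs1
  rcases s.eq_empty_or_nonempty with rfl | hne
  · exact ⟨1 / 2, 0, le_rfl, packs_empty, by simp⟩
  obtain ⟨m, hm, hmax⟩ := exists_max_image s a hne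
  rcases le_or_gt (a m) (1 / 2) with hm2 | hm2
  · -- all items at most 1/2
    have hle : ∀ i ∈ s, a i ≤ 1 / 2 := fun i hi => (hmax i hi).trans hm2
    have hsum : ∑ i ∈ s, w2 0 (a i) = s.card := by
      rw [card_eq_sum_ones]
      refine sum_congr rfl fun i hi => ?_
      have h1 := hs i hi
      have h2 := hle i hi
      unfold w2
      rw [if_neg (by linarith), if_pos ⟨by linarith, h1⟩]
    by_cases h1 : s.card = 1
    · refine ⟨0, 1, by norm_num, ?_, by omega⟩
      have h2 := (packs_empty (a := a)).add (disjoint_empty_left s) (t := s) (by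
        obtain ⟨x, hx⟩ := card_eq_one.1 h1
        rw [hx, sum_singleton]
        exact hs1 x (by rw [hx]; exact mem_singleton_self x))
      simpa using h2
    · have h2 : (s.erase m).Nonempty := by
        rw [← card_pos, card_erase_of_mem hm]
        have := card_pos.2 hne
        omega
      obtain ⟨x, hx⟩ := h2
      have hxm : x ≠ m := ne_of_mem_erase hx
      have hxs : x ∈ s := mem_of_mem_erase hx
      have hsub : ({m, x} : Finset (Fin n)) ⊆ s := by
        intro i hi
        rcases mem_insert.1 hi with h | h
        · rw [h]; exact hm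
        · rw [mem_singleton.1 h]; exact hxs
      have hc2 : ({m, x} : Finset (Fin n)).card = 2 := card_pair hxm.symm
      have hcard : (s \ {m, x}).card = s.card - 2 := by
        rw [card_sdiff_of_subset hsub, hc2]
      have hge : 2 ≤ s.card := by
        rw [← hc2]; exact card_le_card hsub
      obtain ⟨θ, k, hθ, hk, hk2⟩ := ih (s.card - 2) (by omega) (s \ {m, x}) hcard
        (fun i hi => hs i (mem_sdiff.1 hi).1) (fun i hi => hs1 i (mem_sdiff.1 hi).1)
      have h3 : ∑ i ∈ s \ {m, x}, w2 θ (a i) ≤ s.card - 2 := by
        rw [← hcard, card_eq_sum_ones]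
        refine sum_le_sum fun i hi => ?_
        have h4 := hle i (mem_sdiff.1 hi).1
        unfold w2
        rw [if_neg (by linarith)]
        split_ifs <;> omega
      have h5 := hk.add sdiff_disjoint (t := {m, x}) (by
        rw [sum_pair hxm.symm]
        have h6 := hle m hm
        have h7 := hle x hxs
        linarith)
      rw [sdiff_union_of_subset hsub] at h5
      exact ⟨0, k + 1, by norm_num, h5, by omega⟩
  · -- a big item
    set T := s.filter fun i => 1 - a m < a i with hT
    have hmT : m ∈ T := by
      rw [hT, mem_filter]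
      exact ⟨hm, by linarith⟩
    obtain ⟨θ0, hθ0, hθ0'⟩ := exists_theta hs hm hm2
    rw [← hT] at hθ0'
    have hTpos : 0 < T.card := card_pos.2 ⟨m, hmT⟩
    by_cases hF : (s.filter fun i => a i ≤ 1 - a m).Nonempty
    · obtain ⟨x, hx, hxmax⟩ := exists_max_image _ a hF
      rw [mem_filter] at hx
      have hxm : x ≠ m := by
        rintro rfl
        linarith [hx.2]
      have hsub : ({m, x} : Finset (Fin n)) ⊆ s := by
        intro i hi
        rcases mem_insert.1 hi with h | h
        · rw [h]; exact hm
        · rw [mem_singleton.1 h]; exact hx.1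
      have hc2 : ({m, x} : Finset (Fin n)).card = 2 := card_pair hxm.symm
      have hcard : (s \ {m, x}).card = s.card - 2 := by
        rw [card_sdiff_of_subset hsub, hc2]
      have hge : 2 ≤ s.card := by
        rw [← hc2]; exact card_le_card hsub
      obtain ⟨θ, k, hθ, hk, hk2⟩ := ih (s.card - 2) (by omega) (s \ {m, x}) hcard
        (fun i hi => hs i (mem_sdiff.1 hi).1) (fun i hi => hs1 i (mem_sdiff.1 hi).1)
      have h5 := hk.add sdiff_disjoint (t := {m, x}) (by
        rw [sum_pair hxm.symm]
        linarith [hx.2])
      rw [sdiff_union_of_subset hsub] at h5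
      have hsplit : ∑ i ∈ s, w2 θ (a i)
          = ∑ i ∈ s \ {m, x}, w2 θ (a i) + (w2 θ (a m) + w2 θ (a x)) := by
        have h20 := sum_sdiff hsub (f := fun i => w2 θ (a i))
        rw [sum_pair hxm.symm] at h20
        exact h20.symm
      rcases lt_or_ge (1 - a m) θ with h6 | h6
      · refine ⟨θ, k + 1, hθ, h5, ?_⟩
        have h7 : w2 θ (a m) = 2 := by
          unfold w2
          rw [if_pos (by linarith)]
        omega
      · rcases le_or_gt θ (a x) with h8 | h8
        · refine ⟨θ, k + 1, hθ, h5, ?_⟩
          have h7 : 1 ≤ w2 θ (a m) := by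
            unfold w2
            split_ifs with h9 h10
            · norm_num
            · norm_num
            · exact absurd ⟨by linarith, hs m hm⟩ h10
          have h7' : 1 ≤ w2 θ (a x) := by
            unfold w2
            split_ifs with h9 h10
            · norm_num
            · norm_num
            · exact absurd ⟨h8, hs x hx.1⟩ h10
          omega
        · refine ⟨θ0, k + 1, hθ0, h5, ?_⟩
          have h9 : ∑ i ∈ s \ {m, x}, w2 θ (a i) ≤ (T.erase m).card := by
            have h10 : ∑ i ∈ s \ {m, x}, w2 θ (a i)
                ≤ ∑ i ∈ s \ {m, x}, if i ∈ T.erase m then 1 else 0 := by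
              refine sum_le_sum fun i hi => ?_
              have his := (mem_sdiff.1 hi).1
              have him : i ≠ m := by
                rintro rfl
                exact (mem_sdiff.1 hi).2 (mem_insert_self _ _)
              refine (w2_bound (hmax i his) h6).trans ?_
              by_cases h11 : θ ≤ a i
              · have h12 : i ∈ T := by
                  rw [hT, mem_filter]
                  refine ⟨his, ?_⟩
                  by_contra h13
                  have h14 := hxmax i (mem_filter.2 ⟨his, not_lt.1 h13⟩)
                  linarith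
                rw [if_pos h11, if_pos (mem_erase.2 ⟨him, h12⟩)]
              · rw [if_neg h11]
                exact Nat.zero_le _
            refine h10.trans ?_
            rw [sum_ite_mem, sum_const, smul_eq_mul, mul_one]
            exact card_le_card inter_subset_right
          rw [card_erase_of_mem hmT] at h9
          omega
    · -- nothing fits with `m`
      have hcard : (s.erase m).card = s.card - 1 := card_erase_of_mem hm
      have hpos := card_pos.2 hne
      obtain ⟨θ, k, hθ, hk, hk2⟩ := ih (s.card - 1) (by omega) (s.erase m) hcard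
        (fun i hi => hs i (mem_of_mem_erase hi)) (fun i hi => hs1 i (mem_of_mem_erase hi))
      have h5 := hk.add (t := {m}) (by simp) (by rw [sum_singleton]; exact hs1 m hm)
      have h5' : s.erase m ∪ {m} = s := by
        rw [union_comm, ← insert_eq, insert_erase hm]
      rw [h5'] at h5
      have hsplit : ∑ i ∈ s, w2 θ (a i) = ∑ i ∈ s.erase m, w2 θ (a i) + w2 θ (a m) :=
        (sum_erase_add _ _ hm).symm
      rcases lt_or_ge (1 - a m) θ with h6 | h6
      · refine ⟨θ, k + 1, hθ, h5, ?_⟩
        have h7 : w2 θ (a m) = 2 := by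
          unfold w2
          rw [if_pos (by linarith)]
        omega
      · refine ⟨θ0, k + 1, hθ0, h5, ?_⟩
        have hTs : T = s := by
          rw [hT, filter_eq_self]
          intro i hi
          by_contra h13
          exact hF ⟨i, mem_filter.2 ⟨hi, not_lt.1 h13⟩⟩
        have h9 : ∑ i ∈ s.erase m, w2 θ (a i) ≤ (s.erase m).card := by
          rw [card_eq_sum_ones]
          refine sum_le_sum fun i hi => ?_
          refine (w2_bound (hmax i (mem_of_mem_erase hi)) h6).trans ?_
          split_ifs <;> omega
        rw [hTs] at hθ0'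
        omega

end Vale.Agent.H5P302
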