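import Vale.Agent.H5P302.Greedy

namespace Vale.Agent.H5P302

open Finset

variable {n : ℕ} {a : Fin n → ℚ}

/-- weak duality for the configuration LP -/
lemma dual {v : ℝ} (hv : IsLPValue a v) (w : ℚ → ℝ) (hw0 : ∀ σ, 0 ≤ w σ)
    (hw : ∀ c : sizes a → ℕ, IsConfig a c → ∑ σ : sizes a, w σ * (c σ : ℝ) ≤ 1) :
    ∑ i, w (a i) ≤ v := by
  classical
  obtain ⟨C, z, h1, h2, h3⟩ := hv
  have e1 : ∑ i, w (a i) = ∑ σ : sizes a, (mult a σ : ℝ) * w σ := by
    have h4 : ∑ i, w (a i) = ∑ σ ∈ sizes a, ∑ i ∈ univ.filter (fun i => a i = σ), w (a i) := by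
      rw [sum_fiberwise_of_maps_to]
      intro i _
      exact mem_image_of_mem a (mem_univ i)
    rw [h4, ← sum_coe_sort]
    refine sum_congr rfl fun σ _ => ?_
    have h5 : ∀ i ∈ univ.filter (fun i => a i = (σ : ℚ)), w (a i) = w σ := by
      intro i hi
      rw [(mem_filter.1 hi).2]
    rw [sum_congr rfl h5, sum_const, nsmul_eq_mul]
    rfl
  rw [e1]
  calc ∑ σ : sizes a, (mult a σ : ℝ) * w σ
      ≤ ∑ σ : sizes a, (∑ c ∈ C, (c σ : ℝ) * z c) * w σ :=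
        sum_le_sum fun σ _ => mul_le_mul_of_nonneg_right (h2 σ) (hw0 σ)
    _ = ∑ c ∈ C, z c * ∑ σ : sizes a, w σ * (c σ : ℝ) := by
        simp_rw [sum_mul, mul_sum]
        rw [sum_comm]
        refine sum_congr rfl fun c _ => sum_congr rfl fun σ _ => by ring
    _ ≤ ∑ c ∈ C, z c * 1 :=
        sum_le_sum fun c hc => mul_le_mul_of_nonneg_left (hw c (h1 c hc).1) (h1 c hc).2
    _ = v := by
        rw [h3]
        simp

lemma total_le {v : ℝ} (h0 : ∀ i, 0 < a i) (hv : IsLPValue a v) : ((∑ i, a i : ℚ) : ℝ) ≤ v := by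
  have h1 := dual hv (fun σ => max (σ : ℝ) 0) (fun σ => le_max_right _ _) (by
    intro c hc
    have h2 : ∑ σ : sizes a, max ((σ : ℚ) : ℝ) 0 * (c σ : ℝ)
        = ((∑ σ : sizes a, (σ : ℚ) * (c σ : ℚ) : ℚ) : ℝ) := by
      push_cast
      refine sum_congr rfl fun σ _ => ?_
      have h3 : 0 < (σ : ℚ) := by
        obtain ⟨i, _, hi⟩ := mem_image.1 σ.2
        rw [← hi]
        exact h0 i
      rw [max_eq_left (by exact_mod_cast h3.le)]
    rw [h2]
    exact_mod_cast hc)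
  have h4 : ∑ i, max ((a i : ℚ) : ℝ) 0 = ((∑ i, a i : ℚ) : ℝ) := by
    push_cast
    refine sum_congr rfl fun i _ => ?_
    rw [max_eq_left (by exact_mod_cast (h0 i).le)]
  rw [h4] at h1
  exact h1

/-- the doubled weights satisfy the configuration constraints -/
lemma w2_config {θ : ℚ} (hθ : θ ≤ 1 / 2) (h0 : ∀ i, 0 < a i) (c : sizes a → ℕ)
    (hc : IsConfig a c) : ∑ σ : sizes a, w2 θ σ * c σ ≤ 2 := by
  classical
  unfold IsConfig at hc
  have hpos : ∀ σ : sizes a, 0 < (σ : ℚ) := by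
    intro σ
    obtain ⟨i, _, hi⟩ := mem_image.1 σ.2
    rw [← hi]
    exact h0 i
  have hnn : ∀ σ : sizes a, 0 ≤ (σ : ℚ) * (c σ : ℚ) := fun σ =>
    mul_nonneg (hpos σ).le (Nat.cast_nonneg _)
  by_cases hbig : ∃ σ : sizes a, 1 - θ < (σ : ℚ) ∧ 1 ≤ c σ
  · obtain ⟨σ0, hσ0, hc0⟩ := hbig
    have h1 : (σ0 : ℚ) * (c σ0 : ℚ) + ∑ σ ∈ univ.erase σ0, (σ : ℚ) * (c σ : ℚ) ≤ 1 := by
      rw [add_sum_erase univ (fun σ : sizes a => (σ : ℚ) * (c σ : ℚ)) (mem_univ σ0)]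
      exact hc
    have hc0' : (1 : ℚ) ≤ c σ0 := by exact_mod_cast hc0
    have h2 : c σ0 = 1 := by
      by_contra h
      have h3 : 2 ≤ c σ0 := by omega
      have h4 : (2 : ℚ) ≤ c σ0 := by exact_mod_cast h3
      have h5 : 0 ≤ ∑ σ ∈ univ.erase σ0, (σ : ℚ) * (c σ : ℚ) := sum_nonneg fun σ _ => hnn σ
      nlinarith [hpos σ0]
    have h6 : ∀ σ ∈ univ.erase σ0, w2 θ σ * c σ = 0 := by
      intro σ hσ
      rcases Nat.eq_zero_or_pos (c σ) with h | h
      · rw [h, mul_zero]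
      · have h7 : (σ : ℚ) * (c σ : ℚ) ≤ ∑ σ ∈ univ.erase σ0, (σ : ℚ) * (c σ : ℚ) :=
          single_le_sum (f := fun σ : sizes a => (σ : ℚ) * (c σ : ℚ)) (fun σ _ => hnn σ) hσ
        have h8 : (1 : ℚ) ≤ c σ := by exact_mod_cast h
        have h9 : (σ : ℚ) ≤ (σ : ℚ) * (c σ : ℚ) := by nlinarith [hpos σ]
        rw [h2] at h1
        push_cast at h1
        have h10 : (σ : ℚ) < θ := by linarith
        have h11 : w2 θ σ = 0 := by
          unfold w2
          rw [if_neg (by linarith), if_neg (fun h => by linarith [h.1])]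
        rw [h11, zero_mul]
    rw [← add_sum_erase univ (fun σ : sizes a => w2 θ σ * c σ) (mem_univ σ0), sum_eq_zero h6, h2]
    have := w2_le_two θ σ0
    omega
  · push Not at hbig
    have h1 : ∀ σ : sizes a, ((w2 θ σ * c σ : ℕ) : ℚ) ≤ 3 * ((σ : ℚ) * (c σ : ℚ)) ∧
        ((w2 θ σ * c σ : ℕ) ≠ 0 → ((w2 θ σ * c σ : ℕ) : ℚ) < 3 * ((σ : ℚ) * (c σ : ℚ))) := by
      intro σ
      rcases Nat.eq_zero_or_pos (c σ) with h | h
      · rw [h]
        simp
      · have h2 : ¬ 1 - θ < (σ : ℚ) := fun h3 => by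
          have := hbig σ h3
          omega
        have h8 : (1 : ℚ) ≤ c σ := by exact_mod_cast h
        unfold w2
        rw [if_neg h2]
        split_ifs with h3
        · have h4 : (0 : ℚ) < (3 * (σ : ℚ) - 1) * (c σ : ℚ) := by
            have := h3.2
            apply mul_pos <;> linarith
          push_cast
          constructor
          · linarith
          · intro _
            linarith
        · simp only [zero_mul, Nat.cast_zero]
          exact ⟨by have := hnn σ; linarith, fun h => absurd rfl h⟩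
    by_contra hcon
    rw [not_le] at hcon
    have h2 : ∃ σ : sizes a, (w2 θ σ * c σ : ℕ) ≠ 0 := by
      by_contra h
      push Not at h
      rw [sum_eq_zero (fun σ _ => h σ)] at hcon
      omega
    obtain ⟨σ1, hσ1⟩ := h2
    have h3 : ∑ σ : sizes a, ((w2 θ σ * c σ : ℕ) : ℚ) < ∑ σ : sizes a, 3 * ((σ : ℚ) * (c σ : ℚ)) :=
      sum_lt_sum (fun σ _ => (h1 σ).1) ⟨σ1, mem_univ _, (h1 σ1).2 hσ1⟩
    rw [← mul_sum, ← Nat.cast_sum] at h3
    have h4 : (3 : ℚ) ≤ ((∑ σ : sizes a, w2 θ σ * c σ : ℕ) : ℚ) := by exact_mod_cast hcon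
    linarith

lemma w2_total {θ : ℚ} (hθ : θ ≤ 1 / 2) (h0 : ∀ i, 0 < a i) {v : ℝ} (hv : IsLPValue a v) :
    ((∑ i, w2 θ (a i) : ℕ) : ℝ) ≤ 2 * v := by
  have h1 := dual hv (fun σ => (w2 θ σ : ℝ) / 2) (fun σ => by positivity) (by
    intro c hc
    have h2 := w2_config hθ h0 c hc
    have h3 : ∑ σ : sizes a, (w2 θ σ : ℝ) / 2 * (c σ : ℝ)
        = ((∑ σ : sizes a, w2 θ σ * c σ : ℕ) : ℝ) / 2 := by
      push_cast
      rw [sum_div]
      exact sum_congr rfl fun σ _ => by ring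
    rw [h3]
    have h4 : ((∑ σ : sizes a, w2 θ σ * c σ : ℕ) : ℝ) ≤ 2 := by exact_mod_cast h2
    linarith)
  rw [← sum_div] at h1
  push_cast
  linarith

end Vale.Agent.H5P302
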